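import Vale.Agent.P182.H96.OffE0
import Vale.Agent.P182.H120.FRow
import Vale.Agent.P182.H534.C0b
import Vale.Agent.P182.H58.Glue7I

/-!
# Row OFF of the glued null case, with exactness
-/

namespace Vale.Agent.P182.H478.OffX

open Module Vale.Agent.P182.H533 Vale.Agent.P182.B1 Vale.Agent.P182.H922
  Vale.Agent.P182.H578 Vale.Agent.P182.H588 Vale.Agent.P182.H181 Vale.Agent.P182.H983
  Vale.Agent.P182.H922.S2 Vale.Agent.P182.H120

universe u v w

variable {L : Type u} {V : Type v} {J : Type w} [Field L] [AddCommGroup V] [Module L V]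
  [Fintype J] [DecidableEq J] {𝒟 : Cfg L V J} {u : J → L} {t t' : J → V} {W I : Submodule L V}
  {m : ℕ} {U : Fin m → Submodule L V} {d : Fin m → L} {p : Fin 3 → ℕ}

/-- the admissible families -/
def RR (𝒟 : Cfg L V J) (u : J → L) (t : J → V) (W I : Submodule L V) : Submodule L (J → V) where
  carrier := {r | r ∈ Uu V u ∧ ∃ Γ, RelG 𝒟 W I t Γ r}
  zero_mem' := ⟨(Uu V u).zero_mem, 0, relG_zero⟩
  add_mem' := by
    rintro r r' ⟨h1, Γ, h2⟩ ⟨h1', Γ', h2'⟩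
    exact ⟨(Uu V u).add_mem h1 h1', Γ + Γ', relG_add h2 h2'⟩
  smul_mem' := by
    rintro c r ⟨h1, Γ, h2⟩
    exact ⟨(Uu V u).smul_mem c h1, c • Γ, relG_smul h2 c⟩

variable [FiniteDimensional L V]

theorem bks (hC : Ctx 𝒟 u) (B : Blk 𝒟 u t t' W I U d p) : H96.OE.Bks 𝒟 u t W I U where
  hG := hC.good
  hk := hC.krel
  ht := B.ht
  le := U_le B
  S k a v hv := Res_U B k a hv
  span k := (B.sumU k).ge
  orth k k' h v hv w hw := B.ortho k k' h v hv w hw
  hI v := ⟨fun h => ⟨I_le B h, fun w hw => I_perp B h hw⟩, fun h => mem_I B h.1 h.2⟩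

theorem bas (hC : Ctx 𝒟 u) (B : Blk 𝒟 u t t' W I U d p) {x y : L}
    (hu : ∀ k, x + y * d k ≠ 0) :
    H96.OE.Bas 𝒟 u t W I U (tm t t' x y) (fun k => x + y * d k) where
  hτ := tm_mem B x y
  ev k w hw := by
    funext l
    exact star_tm B x y hw l
  ne := hu
  W a w hw := by
    rw [← sumW_tm B hC hu]
    exact Submodule.mem_iSup_of_mem a (Submodule.mem_map_of_mem hw)
  nil := by
    obtain ⟨N, hN⟩ := H58.Glue7.exists_nil hC.good hC.krel B hu
    refine ⟨N, ?_⟩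
    have h1 : ∀ n, H96.Tl.itI (Res 𝒟 (tm t t' x y)) I n =
        (H58.Glue7.st (Res 𝒟 (tm t t' x y)))^[n] I := by
      intro n
      induction n with
      | zero => rfl
      | succ n ih => rw [Function.iterate_succ_apply', ← ih]; rfl
    rw [h1, hN]

/-- formal chains in the two languages -/
theorem fchain {i j : Fin m} {T : ℕ → Fin 3 → End L V} {M n0 : ℕ}
    (hT : H120.FChain 𝒟.q (Res 𝒟 t) W I (U i) (U j) (U i ⊓ I) T M n0) :
    H96.OE.FChain 𝒟.q (Res 𝒟 t) W I (U i) (U j) T M where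
  mem := hT.range
  kill n a v hv := hT.kill n a v hv
  top := hT.top
  zero v := by
    have h1 := LinearMap.congr_fun hT.zero v
    rwa [LinearMap.sum_apply] at h1
  step n v := by
    have h1 := LinearMap.congr_fun (hT.step n) v
    rwa [LinearMap.sum_apply, LinearMap.sum_apply] at h1
  comm0 := hT.comm0
  comm := hT.comm

/-- the witnesses -/
theorem wt (h2 : (2 : L) ≠ 0) (hC : Ctx 𝒟 u) (hM : MaxCoreU 𝒟 u t)
    (B : Blk 𝒟 u t t' W I U d p) {i j : Fin m} {x y ρ : L} (hx : x + y * d i = ρ)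
    (hy : x + y * d j = 1) (hu : ∀ k, x + y * d k ≠ 0) (hcen : Cen 𝒟 t t' W I x y)
    {T : ℕ → Fin 3 → End L V} {M : ℕ}
    (hT : H96.OE.FChain 𝒟.q (Res 𝒟 t) W I (U i) (U j) T M) :
    H96.OE.Wt 𝒟 u t W I U (bks hC B).hG.form (RR 𝒟 u t W I) i j T M ρ := by
  have hG := hC.good
  have hB := bks hC B
  have hb := bas hC B hu
  have hq : IsForm 𝒟.q := hB.hG.form
  have hat := hB.atBase hb (i := i) (j := j) hy
  have hbm : ∀ a v, H96.OE.bt hq T M (ρ ^ 2) a v ∈ W := fun a v =>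
    hT.bt_mem hq (hB.le i) (hB.le j) _ a v
  have hSA : ∀ a, IsSA 𝒟.q (H96.OE.bt hq T M (ρ ^ 2) a) := fun a => H96.OE.bt_SA hq _ a
  have hat' : H96.OE.AtBase 𝒟.q (Res 𝒟 t) (U i) (U j) (ρ ^ 2) (Res 𝒟 (tm t t' x y)) := by
    have h1 := hat
    rwa [hx] at h1
  obtain ⟨r, hr, hn, f1, f2, Γ, Γ', c, hΓ, hΓ', -, -, hc, -⟩ := rowS_wit h2 B hC hM hu hcen
    (β := H96.OE.bt hq T M (ρ ^ 2))
    (fun a => ⟨hbm a, fun v hv => hq.nondeg _ fun w => by
      rw [hSA a]; exact hv _ (hbm a w)⟩)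
    hSA
    (fun a w hw => by
      have h1 := hT.bt_comm hq hat' (hB.le i) (hB.le j) hb.W hB.hI a hw
      have h3 := I.neg_mem h1
      rwa [neg_sub] at h3)
    (hT.bt_sum hq hat')
  refine ⟨tm t t' x y, fun k => x + y * d k, r, fun k => (x + y * d k) * c k, hb, hx, hy,
    ⟨hr, Γ', hΓ'⟩, ⟨f1, f2⟩, hn, fun k a v hv => ?_⟩
  have h1 := hΓ'.two a v (U_le B k hv)
  have h3 := Res_I B hG a (hc k v hv)
  have h4 := I.add_mem h1 h3
  rwa [map_sub, map_smul, sub_add_sub_cancel] at h4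

/-- **Exactness of the tails of the formal chains.** -/
theorem mem_WFe [CharZero L] (hC : Ctx 𝒟 u) (hM : MaxCoreU 𝒟 u t)
    (B : Blk 𝒟 u t t' W I U d p) {i j : Fin m} (hij : d i ≠ d j)
    {T : ℕ → Fin 3 → End L V} {M n0 : ℕ}
    (hT : H120.FChain 𝒟.q (Res 𝒟 t) W I (U i) (U j) (U i ⊓ I) T M n0) {n : ℕ} (hn : n0 ≤ n) :
    fam 𝒟 t (T n) ∈ WFe 𝒟 t W I u U := by
  obtain ⟨F, hF, hF0, h⟩ := exists_rowS (two_ne_zero : (2 : L) ≠ 0) B hC hM
  have hB := bks hC B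
  by_cases hnM : n ≤ M
  · have hij' : i ≠ j := fun e => hij (by rw [e])
    obtain ⟨r, hr, c, hc, hcc⟩ := H96.OE.exact_tail hB hij' (fchain hT) (RR := RR 𝒟 u t W I)
      (fun r hr => hr.1) (infinite_good hF hF0 hij) (fun ρ hρ => by
        obtain ⟨-, x, y, hx, hy, hxy⟩ := hρ
        obtain ⟨hu, hcen, -⟩ := h x y hxy
        exact wt two_ne_zero hC hM B hx hy hu hcen (fchain hT)) (n0 := n0)
      (fun n hn a v => (hT.tail n hn a v).2) n hn hnM
    refine ⟨r, hr.1, hr.2, ⟨c, fun k w hw l => ?_⟩, hcc⟩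
    have h1 := congrFun (hc k w hw) l
    rw [hC.good.form.symm, hC.good.form.symm w]
    exact h1
  · have h1 : T n = 0 := hT.top n (by omega)
    rw [h1]
    exact (WFe 𝒟 t W I u U).zero_mem

/-- **Row OFF.** -/
theorem offRow [CharZero L] (hC : Ctx 𝒟 u) (hM : MaxCoreU 𝒟 u t)
    (B : Blk 𝒟 u t t' W I U d p) : H534.OffRow 𝒟 u t W I U d := by
  intro i j hij e he f hf a
  refine ⟨?_, (off_WF hC hM B hij a).2 _ (tp_mem hC.good.form hf he)⟩
  obtain ⟨N, hSt⟩ := exists_setup hC.good B i j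
  let g : End L V →ₗ[L] (J → V) × (J → V) := famL 𝒟 t ∘ₗ
    LinearMap.single L (fun _ : Fin 3 => End L V) a
  have h1 : U i ⊓ I ≤ (WFe 𝒟 t W I u U).comap (g ∘ₗ H818.rkL 𝒟.q f) := by
    refine hSt.le_of_tail (hmin_of_blk B i) fun e he => ?_
    obtain ⟨T, M, n0, n, hT, hn, hTm⟩ := he a f hf
    have h2 := mem_WFe hC hM B hij hT hn
    rw [hTm] at h2
    exact h2
  exact h1 he

end Vale.Agent.P182.H478.OffX
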