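import Vale.Agent.P182.H478.OffX
import Vale.Agent.P182.H534.C0e
import Vale.Agent.P182.H952.FB

/-!
# Row C0 of the glued null case
-/

namespace Vale.Agent.P182.H478

open Module Vale.Agent.P182.H533 Vale.Agent.P182.B1 Vale.Agent.P182.H922
  Vale.Agent.P182.H578 Vale.Agent.P182.H588 Vale.Agent.P182.H181 Vale.Agent.P182.H398

universe u v w

variable {L : Type u} {V : Type v} {J : Type w} [Field L] [AddCommGroup V] [Module L V]
  [Fintype J] [DecidableEq J] {𝒟 : Cfg L V J} {u : J → L} {t t' : J → V} {W I : Submodule L V}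
  {k : ℕ} {U : Fin k → Submodule L V} {d : Fin k → L} {p : Fin 3 → ℕ}
  [FiniteDimensional L V]

/-- the two-section flows at a good base -/
theorem fbRow (hC : Ctx 𝒟 u) (hM : MaxCoreU 𝒟 u t) (B : H983.Blk 𝒟 u t t' W I U d p)
    {i j : Fin k} {x y : L} (hij : d i ≠ d j) (hu : ∀ m, x + y * d m ≠ 0)
    (hcen : S2.Cen 𝒟 t t' W I x y) : H534.FBRow 𝒟 u t t' W I U i j x y := by
  intro T Td ξ ξ' ξd ξd' hT hTd hξ hξ' hs hs' hξd hξd'
  have hne : i ≠ j := fun e => hij (by rw [e])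
  obtain ⟨n, R, E, h1, h2⟩ := H952.exists_FB hC hM B hu hcen hne
    (fun a => ⟨hT.range a, hT.ker a⟩)
    (fun a => ⟨NBlk.Td_mem hC.good.form hT hTd a, fun v hv =>
      NBlk.Td_ker hC.good.form hT hTd a hv⟩) hTd hT.sum hT.comm
    (fun a w _ => hξ a w) (fun a w _ => hξ' a w) hs hs' hξd hξd'
  exact ⟨n, R, h1, h2.nW⟩

/-- **Row C0.** -/
theorem rowC0 [CharZero L] (hC : Ctx 𝒟 u) (hM : MaxCoreU 𝒟 u t)
    (B : H983.Blk 𝒟 u t t' W I U d p) : H983.RowC0 𝒟 u t W I :=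
  H534.rowC0_of_FB hC hM B (OffX.offRow hC hM B) fun _ _ _ _ hij hu hcen =>
    fbRow hC hM B hij hu hcen

end Vale.Agent.P182.H478
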